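import Vale.Agent.P181.TS.Spec
import Vale.Agent.P181.H12.S6Gen

/-!
# P181, TS: [TS-GEN], independent samples, counted version

Weights `2 ^ (-number of hits)` on the product space and the union bound.
-/

set_option autoImplicit false

namespace Vale.Agent.P181.TS.H935

open Finset

section

variable {N : ℕ} {Ω : Fin N → Type} [∀ c, Fintype (Ω c)] [∀ c, DecidableEq (Ω c)]

/-- few hits are rare -/
theorem card_few (E : (c : Fin N) → Finset (Ω c)) (θ : ℝ) (_hθ : 0 ≤ θ) [∀ c, Nonempty (Ω c)]
    (h : θ ≤ ∑ c, ((E c).card : ℝ) / Fintype.card (Ω c)) :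
    ((univ.filter fun ω : ∀ c, Ω c =>
      8 * ((univ.filter fun c => ω c ∈ E c).card : ℝ) < θ).card : ℝ) ≤
      Real.exp (-(θ / 4)) * ∏ c, (Fintype.card (Ω c) : ℝ) := by
  set M : ℝ := ∏ c, (Fintype.card (Ω c) : ℝ) with hM
  set W : (∀ c, Ω c) → ℝ := fun ω => ∏ c, (if ω c ∈ E c then (1 / 2 : ℝ) else 1) with hW
  have hWpos : ∀ ω, 0 < W ω := by
    intro ω
    apply Finset.prod_pos
    intro c _
    split_ifs <;> norm_num
  -- the total weight
  have h1 : ∑ ω, W ω = ∏ c, ∑ x : Ω c, (if x ∈ E c then (1 / 2 : ℝ) else 1) := by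
    rw [Finset.prod_univ_sum, Fintype.piFinset_univ]
  have h2 : ∀ c, ∑ x : Ω c, (if x ∈ E c then (1 / 2 : ℝ) else 1) ≤
      (Fintype.card (Ω c) : ℝ) * Real.exp (-(((E c).card : ℝ) / Fintype.card (Ω c) / 2)) := by
    intro c
    have hpos : (0 : ℝ) < Fintype.card (Ω c) := by exact_mod_cast Fintype.card_pos
    have h3 : ∑ x : Ω c, (if x ∈ E c then (1 / 2 : ℝ) else 1) =
        (Fintype.card (Ω c) : ℝ) - (E c).card / 2 := by
      have h4 : ∀ x : Ω c, (if x ∈ E c then (1 / 2 : ℝ) else 1) =
          1 - (if x ∈ E c then (1 / 2 : ℝ) else 0) := by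
        intro x
        split_ifs <;> norm_num
      rw [Finset.sum_congr rfl (fun x _ => h4 x), Finset.sum_sub_distrib, Finset.sum_const,
        Finset.card_univ, nsmul_eq_mul, mul_one, Finset.sum_ite_mem, Finset.univ_inter,
        Finset.sum_const, nsmul_eq_mul]
      ring
    rw [h3]
    have h5 := Real.add_one_le_exp (-(((E c).card : ℝ) / Fintype.card (Ω c) / 2))
    have h6 := mul_le_mul_of_nonneg_left h5 hpos.le
    have h7 : (Fintype.card (Ω c) : ℝ) * (-(((E c).card : ℝ) / Fintype.card (Ω c) / 2) + 1) =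
        (Fintype.card (Ω c) : ℝ) - (E c).card / 2 := by
      field_simp
      ring
    rw [h7] at h6
    exact h6
  have h8 : ∑ ω, W ω ≤ M * Real.exp (-(θ / 2)) := by
    rw [h1]
    calc ∏ c, ∑ x : Ω c, (if x ∈ E c then (1 / 2 : ℝ) else 1) ≤
        ∏ c, ((Fintype.card (Ω c) : ℝ) *
          Real.exp (-(((E c).card : ℝ) / Fintype.card (Ω c) / 2))) := by
          apply Finset.prod_le_prod
          · intro c _
            apply Finset.sum_nonneg
            intro x _
            split_ifs <;> norm_num
          · intro c _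
            exact h2 c
      _ = M * Real.exp (-((∑ c, ((E c).card : ℝ) / Fintype.card (Ω c)) / 2)) := by
          rw [Finset.prod_mul_distrib, ← Real.exp_sum, Finset.sum_neg_distrib, Finset.sum_div]
      _ ≤ M * Real.exp (-(θ / 2)) := by
          apply mul_le_mul_of_nonneg_left
          · apply Real.exp_le_exp.2
            linarith
          · rw [hM]
            exact Finset.prod_nonneg (fun c _ => Nat.cast_nonneg _)
  -- the weight of a bad choice
  have h9 : ∀ ω ∈ (univ.filter fun ω : ∀ c, Ω c =>
      8 * ((univ.filter fun c => ω c ∈ E c).card : ℝ) < θ), Real.exp (-(θ / 4)) ≤ W ω := by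
    intro ω hω
    have hω' := (mem_filter.1 hω).2
    have h10 : W ω = (1 / 2 : ℝ) ^ (univ.filter fun c => ω c ∈ E c).card := by
      rw [hW]
      simp only
      rw [Finset.prod_ite, Finset.prod_const_one, mul_one, Finset.prod_const]
    rw [h10]
    have h11 : Real.exp (-1) ≤ 1 / 2 := by
      have h12 := Real.add_one_le_exp (1 : ℝ)
      rw [Real.exp_neg, ← one_div]
      apply one_div_le_one_div_of_le (by norm_num)
      linarith
    calc Real.exp (-(θ / 4)) ≤
        Real.exp (((univ.filter fun c => ω c ∈ E c).card : ℝ) * (-1)) := by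
          apply Real.exp_le_exp.2
          linarith
      _ = Real.exp (-1) ^ (univ.filter fun c => ω c ∈ E c).card := by
          rw [Real.exp_nat_mul]
      _ ≤ _ := pow_le_pow_left₀ (Real.exp_pos _).le h11 _
  set B := (univ.filter fun ω : ∀ c, Ω c =>
      8 * ((univ.filter fun c => ω c ∈ E c).card : ℝ) < θ) with hB
  have h13 : (B.card : ℝ) * Real.exp (-(θ / 4)) ≤ M * Real.exp (-(θ / 2)) := by
    calc (B.card : ℝ) * Real.exp (-(θ / 4)) = ∑ _ω ∈ B, Real.exp (-(θ / 4)) := by
          rw [Finset.sum_const, nsmul_eq_mul]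
      _ ≤ ∑ ω ∈ B, W ω := Finset.sum_le_sum h9
      _ ≤ ∑ ω, W ω := Finset.sum_le_sum_of_subset_of_nonneg (subset_univ _)
          (fun ω _ _ => (hWpos ω).le)
      _ ≤ _ := h8
  have h14 : Real.exp (-(θ / 2)) = Real.exp (-(θ / 4)) * Real.exp (-(θ / 4)) := by
    rw [← Real.exp_add]
    congr 1
    ring
  rw [h14] at h13
  have h15 := Real.exp_pos (-(θ / 4))
  have h16 : (B.card : ℝ) * Real.exp (-(θ / 4)) ≤
      (Real.exp (-(θ / 4)) * M) * Real.exp (-(θ / 4)) := by
    calc (B.card : ℝ) * Real.exp (-(θ / 4)) ≤ _ := h13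
      _ = _ := by ring
  exact le_of_mul_le_mul_right h16 h15

/-- many hits of a small set are rare -/
theorem card_many (F : (c : Fin N) → Finset (Ω c)) (q : ℝ) (hq : 0 ≤ q)
    (h : ∀ c, ((F c).card : ℝ) ≤ q * Fintype.card (Ω c)) (k : ℕ) :
    ((univ.filter fun ω : ∀ c, Ω c =>
      k ≤ (univ.filter fun c => ω c ∈ F c).card).card : ℝ) ≤
      (N.choose k : ℝ) * q ^ k * ∏ c, (Fintype.card (Ω c) : ℝ) := by
  have h1 : (univ.filter fun ω : ∀ c, Ω c =>
      k ≤ (univ.filter fun c => ω c ∈ F c).card) ⊆
      (powersetCard k (univ : Finset (Fin N))).biUnion fun S =>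
        Fintype.piFinset (fun c => if c ∈ S then F c else univ) := by
    intro ω hω
    rw [mem_filter] at hω
    obtain ⟨S, hS, hSc⟩ := Finset.exists_subset_card_eq hω.2
    rw [mem_biUnion]
    refine ⟨S, mem_powersetCard.2 ⟨subset_univ _, hSc⟩, ?_⟩
    rw [Fintype.mem_piFinset]
    intro c
    by_cases hc : c ∈ S
    · rw [if_pos hc]
      exact (mem_filter.1 (hS hc)).2
    · rw [if_neg hc]
      exact mem_univ _
  have h2 : ∀ S ∈ powersetCard k (univ : Finset (Fin N)),
      ((Fintype.piFinset (fun c => if c ∈ S then F c else univ)).card : ℝ) ≤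
        q ^ k * ∏ c, (Fintype.card (Ω c) : ℝ) := by
    intro S hS
    rw [Fintype.card_piFinset]
    push_cast
    calc ∏ c, ((if c ∈ S then F c else univ : Finset (Ω c)).card : ℝ) ≤
        ∏ c : Fin N, ((if c ∈ S then q else 1) * (Fintype.card (Ω c) : ℝ)) := by
          apply Finset.prod_le_prod (fun c _ => Nat.cast_nonneg _)
          intro c _
          by_cases hc : c ∈ S
          · rw [if_pos hc, if_pos hc]
            exact h c
          · rw [if_neg hc, if_neg hc, one_mul, Finset.card_univ]
      _ = q ^ k * ∏ c, (Fintype.card (Ω c) : ℝ) := by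
          rw [Finset.prod_mul_distrib, Finset.prod_ite_mem, Finset.univ_inter,
            Finset.prod_const, (mem_powersetCard.1 hS).2]
  calc ((univ.filter fun ω : ∀ c, Ω c =>
      k ≤ (univ.filter fun c => ω c ∈ F c).card).card : ℝ) ≤
      (((powersetCard k (univ : Finset (Fin N))).biUnion fun S =>
        Fintype.piFinset (fun c => if c ∈ S then F c else univ)).card : ℝ) := by
        exact_mod_cast Finset.card_le_card h1
    _ ≤ ∑ S ∈ powersetCard k (univ : Finset (Fin N)),
        ((Fintype.piFinset (fun c => if c ∈ S then F c else univ)).card : ℝ) := by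
        exact_mod_cast Finset.card_biUnion_le
    _ ≤ ∑ _S ∈ powersetCard k (univ : Finset (Fin N)),
        (q ^ k * ∏ c, (Fintype.card (Ω c) : ℝ)) := Finset.sum_le_sum h2
    _ = _ := by
        rw [Finset.sum_const, Finset.card_powersetCard, Finset.card_univ, Fintype.card_fin,
          nsmul_eq_mul]
        ring

end

/-- **[TS-GEN]** -/
theorem genCount : GenCount := by
  intro N Ω _ _ _ ι κ _ _ E θ F q P hq hθ hE hF hlt
  by_contra hcon
  have hcon' : ∀ ω : ∀ c, Ω c, ¬ ((∀ i, θ i ≤ 8 * ((univ.filter fun c => ω c ∈ E c i).card : ℝ)) ∧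
      ∀ k, (univ.filter fun c => ω c ∈ F c k).card ≤ P) := by
    intro ω hω
    exact hcon ⟨ω, hω⟩
  set M : ℝ := ∏ c, (Fintype.card (Ω c) : ℝ) with hM
  have hMpos : 0 < M := by
    apply Finset.prod_pos
    intro c _
    exact_mod_cast Fintype.card_pos
  have hcov : (univ : Finset (∀ c, Ω c)) ⊆
      ((univ : Finset ι).biUnion fun i => univ.filter fun ω : ∀ c, Ω c =>
        8 * ((univ.filter fun c => ω c ∈ E c i).card : ℝ) < θ i) ∪
      ((univ : Finset κ).biUnion fun k => univ.filter fun ω : ∀ c, Ω c =>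
        P + 1 ≤ (univ.filter fun c => ω c ∈ F c k).card) := by
    intro ω _
    rw [mem_union, mem_biUnion, mem_biUnion]
    by_contra hno
    push Not at hno
    apply hcon' ω
    refine ⟨?_, ?_⟩
    · intro i
      have h1 := hno.1 i (mem_univ _)
      rw [mem_filter] at h1
      push Not at h1
      exact h1 (mem_univ _)
    · intro k
      have h1 := hno.2 k (mem_univ _)
      rw [mem_filter] at h1
      push Not at h1
      have := h1 (mem_univ _)
      omega
  have hcard : (((univ : Finset (∀ c, Ω c)).card : ℕ) : ℝ) = M := by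
    rw [Finset.card_univ, Fintype.card_pi]
    push_cast
    rfl
  have h1 : M ≤ (∑ i, Real.exp (-(θ i / 4)) * M) +
      ∑ _k : κ, (3 * N * q / (P + 1)) ^ (P + 1) * M := by
    calc M = (((univ : Finset (∀ c, Ω c)).card : ℕ) : ℝ) := hcard.symm
      _ ≤ ((((univ : Finset ι).biUnion fun i => univ.filter fun ω : ∀ c, Ω c =>
            8 * ((univ.filter fun c => ω c ∈ E c i).card : ℝ) < θ i) ∪
          ((univ : Finset κ).biUnion fun k => univ.filter fun ω : ∀ c, Ω c =>
            P + 1 ≤ (univ.filter fun c => ω c ∈ F c k).card)).card : ℝ) := by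
          exact_mod_cast Finset.card_le_card hcov
      _ ≤ (((univ : Finset ι).biUnion fun i => univ.filter fun ω : ∀ c, Ω c =>
            8 * ((univ.filter fun c => ω c ∈ E c i).card : ℝ) < θ i).card : ℝ) +
          (((univ : Finset κ).biUnion fun k => univ.filter fun ω : ∀ c, Ω c =>
            P + 1 ≤ (univ.filter fun c => ω c ∈ F c k).card).card : ℝ) := by
          exact_mod_cast Finset.card_union_le _ _
      _ ≤ (∑ i, ((univ.filter fun ω : ∀ c, Ω c =>
            8 * ((univ.filter fun c => ω c ∈ E c i).card : ℝ) < θ i).card : ℝ)) +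
          ∑ k, ((univ.filter fun ω : ∀ c, Ω c =>
            P + 1 ≤ (univ.filter fun c => ω c ∈ F c k).card).card : ℝ) := by
          apply add_le_add
          · exact_mod_cast Finset.card_biUnion_le
          · exact_mod_cast Finset.card_biUnion_le
      _ ≤ _ := by
          apply add_le_add
          · apply Finset.sum_le_sum
            intro i _
            exact card_few (fun c => E c i) (θ i) (hθ i) (hE i)
          · apply Finset.sum_le_sum
            intro k _
            refine (card_many (fun c => F c k) q hq (fun c => hF c k) (P + 1)).trans ?_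
            rw [← hM]
            apply mul_le_mul_of_nonneg_right _ hMpos.le
            have h3 := Vale.Agent.P181.H12.choose_le_three N (P + 1) (Nat.succ_pos P)
            calc (N.choose (P + 1) : ℝ) * q ^ (P + 1) ≤
                (3 * N / ((P + 1 : ℕ) : ℝ)) ^ (P + 1) * q ^ (P + 1) :=
                  mul_le_mul_of_nonneg_right h3 (pow_nonneg hq _)
              _ = (3 * N * q / (P + 1)) ^ (P + 1) := by
                  rw [← mul_pow]
                  congr 1
                  push_cast
                  ring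
  have h2 : (∑ i, Real.exp (-(θ i / 4)) * M) +
      ∑ _k : κ, (3 * N * q / (P + 1)) ^ (P + 1) * M =
      ((∑ i, Real.exp (-(θ i / 4))) + Fintype.card κ * (3 * N * q / (P + 1)) ^ (P + 1)) * M := by
    rw [← Finset.sum_mul, Finset.sum_const, Finset.card_univ, nsmul_eq_mul]
    ring
  rw [h2] at h1
  nlinarith [mul_lt_mul_of_pos_right hlt hMpos]

end Vale.Agent.P181.TS.H935
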